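import Mathlib

/-! Hypercommutative algebras (genus `0` primary operations) in multiset form. -/

set_option autoImplicit false

namespace Crest.Agent.X262.Ult

/-- `op d l` is the Poincaré dual of `y ↦ ⟨y, l⟩_d`. -/
structure Hyc (k : Type*) [CommRing k] (ι : Type) [DecidableEq ι] (H : Type*) [CommRing H]
    [Algebra k H] where
  op : (ι →₀ ℕ) → Multiset H → H
  add : ∀ d x y l, op d ((x + y) ::ₘ l) = op d (x ::ₘ l) + op d (y ::ₘ l)
  smul : ∀ d (c : k) x l, op d ((c • x) ::ₘ l) = c • op d (x ::ₘ l)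
  cl : ∀ a b, op 0 (a ::ₘ b ::ₘ 0) = a * b
  zero3 : ∀ l, 3 ≤ Multiset.card l → op 0 l = 0
  wdvv : ∀ d l a b c,
    ∑ e ∈ Finset.HasAntidiagonal.antidiagonal d, ((Multiset.antidiagonal l).map fun s =>
        op e.2 (op e.1 (a ::ₘ b ::ₘ s.1) ::ₘ c ::ₘ s.2)).sum =
      ∑ e ∈ Finset.HasAntidiagonal.antidiagonal d, ((Multiset.antidiagonal l).map fun s =>
        op e.2 (op e.1 (a ::ₘ c ::ₘ s.1) ::ₘ b ::ₘ s.2)).sum

namespace Hyc
variable {k : Type*} [CommRing k] {ι : Type} [DecidableEq ι] {H : Type*} [CommRing H]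
  [Algebra k H] (Q : Hyc k ι H)

/-- divisor axiom for the class `L` with `L · d = φ d` -/
def IsDiv (L : H) (φ : (ι →₀ ℕ) → k) : Prop :=
  ∀ d l, 2 ≤ Multiset.card l → Q.op d (L ::ₘ l) = φ d • Q.op d l

/-- all operations are linear over the class `c` (classes vertical over the base carrying `c`) -/
def IsLin (c : H) (P : (ι →₀ ℕ) → Prop) : Prop :=
  ∀ d, P d → ∀ x l, Q.op d ((c * x) ::ₘ l) = c * Q.op d (x ::ₘ l)

theorem op_zero (d : ι →₀ ℕ) (l : Multiset H) : Q.op d (0 ::ₘ l) = 0 := by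
  simpa using Q.smul d 0 0 l

theorem op_neg (d : ι →₀ ℕ) (x : H) (l : Multiset H) :
    Q.op d ((-x) ::ₘ l) = -Q.op d (x ::ₘ l) := by
  simpa using Q.smul d (-1) x l

theorem op_sub (d : ι →₀ ℕ) (x y : H) (l : Multiset H) :
    Q.op d ((x - y) ::ₘ l) = Q.op d (x ::ₘ l) - Q.op d (y ::ₘ l) := by
  rw [sub_eq_add_neg, Q.add, Q.op_neg, sub_eq_add_neg]

/-- the first slot as a linear map -/
def opl (d : ι →₀ ℕ) (l : Multiset H) : H →ₗ[k] H where
  toFun x := Q.op d (x ::ₘ l)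
  map_add' x y := Q.add d x y l
  map_smul' c x := Q.smul d c x l

@[simp] theorem opl_apply (d : ι →₀ ℕ) (l : Multiset H) (x : H) :
    Q.opl d l x = Q.op d (x ::ₘ l) := rfl

theorem IsLin.pow {Q : Hyc k ι H} {c : H} {P : (ι →₀ ℕ) → Prop} (h : Q.IsLin c P) (n : ℕ) :
    Q.IsLin (c ^ n) P := by
  induction n with
  | zero => intro d _ x l; simp
  | succ n ih =>
    intro d hd x l
    rw [pow_succ, mul_assoc, ih d hd, h d hd, mul_assoc]

end Hyc

end Crest.Agent.X262.Ult
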